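import Vale.Agent.P344.Final

theorem Vale.Agent.Results.P344.A_full.result :
    (∃ K : ℝ, ∀ n : ℕ, 2 ≤ n →
      Vale.Agent.P344.ComputesDFT n (Vale.Agent.P344.L n) ∧
        (Vale.Agent.P344.L n : ℝ) ≤ K * n * Real.logb 2 n ^ (1 - 4 / 10 ^ 8 : ℝ)) ∧
    ¬ ∃ c : ℝ, 0 < c ∧
      ∀ᶠ n : ℕ in Filter.atTop, c * n * Real.logb 2 n ≤ (Vale.Agent.P344.L n : ℝ) :=
  ⟨Vale.Agent.P344.main_bound, Vale.Agent.P344.not_lower_bound⟩
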